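import Vale.Agent.P168.Variants

/-!
# P168: the Mézard–Parisi formula fails for models of the class

For every even `K ≥ 2` and every `λ > 1` there are models in the class of the problem (as posed)
for which `F_N ≥ Φ_0 + δ` for all `N ≥ 1` and some `δ > 0`; so the limit of `F_N`, if it exists,
is not `inf_r Φ_r`. All definitions are in `Vale/Agent/P168/Defs.lean`.
-/

namespace Vale.Agent.Results.P168.FormulaFails

open MeasureTheory ProbabilityTheory Vale.Agent.P168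

theorem result (K : ℕ) (hK : 2 ≤ K) (_hE : Even K) (lam : ℝ) (hlam : 1 < lam) :
    -- (1) `a, b, f_1, …, f_K` nonrandom
    (∃ M : Model K, M.InClass ∧
      (∀ ω ω', M.a ω = M.a ω' ∧ M.b ω = M.b ω' ∧ ∀ j s, M.f j ω s = M.f j ω' s) ∧
      (∃ δ : ℝ, 0 < δ ∧ ∀ N : ℕ, 1 ≤ N →
        M.Phi lam 0 + (δ : EReal) ≤ ((M.pressure lam N : ℝ) : EReal)) ∧ ¬ M.Formula lam) ∧
    -- (2) `f_1, …, f_K` independent and identically distributed
    (∃ M : Model K, M.InClass ∧ iIndepFun (fun j => M.f j) M.P ∧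
      (∀ j j', IdentDistrib (M.f j) (M.f j') M.P M.P) ∧
      (∃ δ : ℝ, 0 < δ ∧ ∀ N : ℕ, 1 ≤ N →
        M.Phi lam 0 + (δ : EReal) ≤ ((M.pressure lam N : ℝ) : EReal)) ∧ ¬ M.Formula lam) ∧
    -- (3) `b` nonrandom and `(f_1, …, f_K)` exchangeable
    (∃ M : Model K, M.InClass ∧ (∀ ω ω', M.b ω = M.b ω') ∧
      (∀ π : Equiv.Perm (Fin K),
        IdentDistrib (fun ω j => M.f j ω) (fun ω j => M.f (π j) ω) M.P M.P) ∧
      (∃ δ : ℝ, 0 < δ ∧ ∀ N : ℕ, 1 ≤ N →
        M.Phi lam 0 + (δ : EReal) ≤ ((M.pressure lam N : ℝ) : EReal)) ∧ ¬ M.Formula lam) := by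
  obtain ⟨β, hβ, hlt⟩ := exists_beta lam hlam
  have h1 := M1_class K hK β hβ
  have h2 := M2_class K hK β hβ
  have h3 := M3_class K hK β hβ
  refine ⟨⟨M1 K hK β, h1, fun ω ω' => ⟨rfl, rfl, fun j s => rfl⟩, ?_⟩,
    ⟨M2 K β, h2, M2_indep K β, M2_ident K β, ?_⟩,
    ⟨M3 K hK β, h3, fun _ _ => rfl, M3_exch K hK β, ?_⟩⟩
  · exact fails hK _ β hβ.le h1.probP rfl (M1_theta K hK β) lam (by linarith) hlt
  · exact fails hK _ β hβ.le h2.probP rfl (M2_theta K β) lam (by linarith) hlt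
  · exact fails hK _ β hβ.le h3.probP rfl (M3_theta K hK β) lam (by linarith) hlt

end Vale.Agent.Results.P168.FormulaFails
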